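import Vale.Agent.P093.Final.WithU
import Vale.Agent.P093.A5.Main
import Vale.Agent.P093.N.Main

/-!
# P093: the Phillips-Toms conjecture for minimal homeomorphisms

For every minimal homeomorphism `h` of an infinite compact metrizable space `X` and every crossed
product `A` of `C(X)` by `h`, `mdim(X, h) / 2 ≤ rc(A)`.
-/

open Vale.Agent.P093 TopologicalSpace

namespace Vale.Agent.Results.P093.PhillipsToms

universe u v

/-- **The Phillips-Toms conjecture**, the open inequality `mdim(X, h) / 2 ≤ rc(C(X) ⋊ ℤ)`, for all
minimal homeomorphisms `h` of infinite compact metrizable spaces `X`. -/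
theorem result :
    ∀ (X : Type u) [TopologicalSpace X] [CompactSpace X] [MetrizableSpace X] [Infinite X]
      (h : X ≃ₜ X), IsMinimalHomeo h →
      ∀ (A : Type v) [CStarAlgebra A] [PartialOrder A] [StarOrderedRing A],
        IsCrossedProduct h A → meanDim h / 2 ≤ radiusOfComparison A :=
  Final.final_of_static_lr A5.staticThm N.Fin.partN

end Vale.Agent.Results.P093.PhillipsToms
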